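import Vale.Agent.P352X.EH.Defs
import Vale.Agent.P352NA.Defs

/-!
# P352G75: the graded net-only route, vocabulary and rows
-/

set_option linter.all false

open MeasureTheory Filter Topology
open scoped SchwartzMap ComplexConjugate ContDiff

namespace Vale.Agent.P352X.EG.NG

open Vale.Agent.P352 Vale.Agent.P352.GF Vale.Agent.P352.BW Vale.Agent.P352.H246
open Vale.Agent.P352.H496 Vale.Agent.P352.H755 Vale.Agent.P352.H15
open Vale.Agent.P352.SubConf (IsAdj)
open Vale.Agent.P352X.EB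
open Vale.Agent.P352X.EB.NA (Pol rv)
open UniformSpace (Completion)

noncomputable section

variable {D : Type*} [NormedAddCommGroup D] [InnerProductSpace ℂ D]

/-- the data: the stress tensor, the potential of its trace, and the group `exp (i t K)` -/
class Nd (c : Cg D) where
  T : Ix → Ix → Fld D
  l : Fn → Completion D
  SK : ℝ → Completion D →L[ℂ] Completion D

/-- the stress tensor -/
def _root_.Vale.Agent.P352X.EG.Cg.T (c : Cg D) [z : Nd c] : Ix → Ix → Fld D := z.T

/-- the potential -/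
def _root_.Vale.Agent.P352X.EG.Cg.l (c : Cg D) [z : Nd c] : Fn → Completion D := z.l

/-- `exp (i t K)` -/
def _root_.Vale.Agent.P352X.EG.Cg.SK (c : Cg D) [z : Nd c] :
    ℝ → Completion D →L[ℂ] Completion D := z.SK

theorem _root_.Vale.Agent.P352X.EG.Cg.N_mono (c : Cg D) {O O' : Set V} (h : O ⊆ O') :
    ∀ X ∈ c.N O, X ∈ c.N O' := c.hN.mono O O' h

variable (c : Cg D)

/-- the twist: the even part plus the odd part times the grading -/
def tw (X : Completion D →L[ℂ] Completion D) : Completion D →L[ℂ] Completion D :=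
  (2⁻¹ : ℂ) • (X + c.Γ * X * c.Γ) + ((2⁻¹ : ℂ) • (X - c.Γ * X * c.Γ)) * c.Γ

/-- the twisted algebras -/
def Nt (O : Set V) : Set (Completion D →L[ℂ] Completion D) := {Z | tw c Z ∈ c.N O}

/-- true letters: sums of fields smeared in `K`, applied to the vacuum, with their adjoints -/
inductive Tr (K : Set V) : Completion D → Completion D → Prop
  | zero : Tr K 0 0
  | fld (B B' : Fld D) (f : Fn) : c.Q.fld B → c.Q.fld B' → IsAdj B B' → In K f →
      Tr K (B f c.Q.vac : D) (B' (bar f) c.Q.vac : D)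
  | add (ξ ξ' η η' : Completion D) : Tr K ξ ξ' → Tr K η η' → Tr K (ξ + η) (ξ' + η')
  | smul (z : ℂ) (ξ ξ' : Completion D) : Tr K ξ ξ' → Tr K (z • ξ) (conj z • ξ')

/-- the vector of a word -/
def wv (w : List (Completion D × Completion D)) : Completion D :=
  w.foldr (fun p v => ml c p.2 v) c.Om

/-- all splittings of the word are products -/
def Sp (K : Set V) (w : List (Completion D × Completion D)) : Prop :=
  ∀ u v, w = u ++ v → Rl c K (wv c (rv u)) (wv c v) (wv c w)

/-- row COV: the similitudes map a field into the span of a finite family of labels -/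
def COV : Prop := ∀ B B', c.Q.fld B → c.Q.fld B' → IsAdj B B' →
  ∃ (e n : ℕ) (q : Fin n → H.Lb c) (κ : Sh c → Fin n → ℂ),
    (∀ g : Sh c, 1 ≤ g.s → g.L = GF.one → ∀ i, ‖κ g i‖ ≤ g.s ^ e) ∧
    ∀ (g : Sh c) f, IsTest f →
      ((B f c.Q.vac : D) : Completion D) = ∑ i, κ g i • g.U c ((q i).B (g.pull f) c.Q.vac : D) ∧
      ((B' f c.Q.vac : D) : Completion D) =
        ∑ i, conj (κ g i) • g.U c ((q i).B' (g.pull f) c.Q.vac : D)

/-- row DENS: the twisted algebras of compact sets generate the commutant -/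
def DENS : Prop := ∀ ξ η ζ : Completion D, (∀ C, IsCompact C → C ⊆ W1 → ∀ Z ∈ Nt c C,
  inner ℂ (Z c.Om) ζ = inner ℂ (Z ξ) η) → Prd (M0 c) c.Om ξ η ζ

variable [Nd c]

/-- letters: the potential (`true`) or true letters (`false`) -/
def Ty (K : Set V) : Bool → Completion D × Completion D → Prop
  | true, p => ∃ h, In K h ∧ p = (c.l h, c.l (bar h))
  | false, p => Tr c K p.1 p.2

/-- pure letters of parity `e`: the potential, or one field -/
def Tp (K : Set V) (e : Bool) (p : Completion D × Completion D) : Prop :=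
  (e = false ∧ Ty c K true p) ∨ ∃ B B' f, c.Q.fld B ∧ c.Q.fld B' ∧ IsAdj B B' ∧ Pa c e B ∧ In K f ∧
    p = (((B f c.Q.vac : D) : Completion D), ((B' (bar f) c.Q.vac : D) : Completion D))

/-- words of letters of given types -/
def Tw (K : Set V) (σ : List Bool) (w : List (Completion D × Completion D)) : Prop :=
  List.Forall₂ (Ty c K) σ w

/-- the vectors of words -/
def Wv : Set (Completion D) := {z | ∃ K σ w, IsCompact K ∧ Tw c K σ w ∧ z = wv c w}

/-- local vectors -/
def D1 (v : Completion D) : Prop := v ∈ Submodule.span ℂ (Wv c)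

/-- row PF: polynomial families through the true letters -/
def PF : Prop := ∀ B B', c.Q.fld B → c.Q.fld B' → IsAdj B B' → ∃ N : ℕ, ∀ f,
  In {z | be z < 0} f → ∃ η η' : ℝ → Completion D, η 0 = (B f c.Q.vac : D) ∧
    η' 0 = (B' (bar f) c.Q.vac : D) ∧
    (∀ t, 0 ≤ t → Reg (-t) f → Tr c (cph t '' tsupport f) (η t) (η' t)) ∧
    Pol N {t | 0 ≤ t ∧ Reg (-t) f} (fun t => c.SK t (η t)) ∧
    Pol N {t | 0 ≤ t ∧ Reg (-t) f} fun t => c.SK t (η' t)

/-- the potential -/
structure HL : Prop where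
  lin : ∀ (f g : Fn) (z : ℂ), IsTest f → IsTest g →
    c.l (fun x => f x + z * g x) = c.l f + z • c.l g
  cont : Continuous fun g : Sch => c.l (ev g)
  trace : ∀ f, IsTest f → (3 : ℂ) • c.l (box f) = ((GF.tr c.T f c.Q.vac : D) : Completion D)
  cov : ∀ s L a f, 0 < s → IsLor L → IsTest f →
    c.l f = ((s ^ 2 : ℝ) : ℂ) • Ug c.Q s L a (c.l fun x => f (sim s L a x))
  gam : ∀ f, IsTest f → c.Γ (c.l f) = c.l f
  pr : ∀ f, In W0 f → Pr (M0 c) c.Om (c.l f) (c.l (bar f))
  flow : ∀ f t, In {z | be z < 0} f → 0 ≤ t → c.SK t (c.l f) = c.l (pb 2 t f)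

/-- **The interface** -/
class NI : Prop where
  hT : c.Q.IsStress c.T
  hl : HL c
  K_zero : ∀ z, c.SK 0 z = z
  K_vac : ∀ t, c.SK t c.Om = c.Om
  skc : ∀ s, 0 ≤ s → ∀ Z ∈ (M0 c).commutant, star (c.SK s) * Z * c.SK s ∈ (M0 c).commutant
  dual : ∀ Z, Z ∈ (M0 c).commutant ↔ Z ∈ Nt c W1
  core : ∀ e ψ ψ', c.Γ ψ = sg e • ψ → c.Γ ψ' = sg e • ψ' →
    (∀ X X', Al c.Q W1 X X' → inner ℂ ((X' c.Q.vac : D) : Completion D) ψ =
      sg e * inner ℂ ψ' ((X c.Q.vac : D) : Completion D)) → Pr (M0 c) c.Om ψ ψ'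
  pf : PF c

/-- row WRD: words split -/
def WRD : Prop := ∀ K σ w, IsCompact K → Tw c K σ w → Sp c K w

/-- row LOC: space-like separated pure letters commute or anticommute -/
def LOC : Prop := ∀ K K' e e' p p', IsCompact K → IsCompact K' →
  (∀ x ∈ K, ∀ y ∈ K', GF.mdot (x - y) (x - y) < 0) → Tp c K e p → Tp c K' e' p' →
  wv c [p, p'] = sg (e && e') • wv c [p', p]

variable [z : NI c]

theorem _root_.Vale.Agent.P352X.EG.Cg.hT : c.Q.IsStress c.T := z.hT

theorem _root_.Vale.Agent.P352X.EG.Cg.hl : HL c := z.hl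

theorem _root_.Vale.Agent.P352X.EG.Cg.K_zero (v : Completion D) : c.SK 0 v = v := z.K_zero v

theorem _root_.Vale.Agent.P352X.EG.Cg.K_vac (t : ℝ) : c.SK t c.Om = c.Om := z.K_vac t

end

end Vale.Agent.P352X.EG.NG
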