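import Vale.Agent.P352G75.Lt
import Vale.Agent.P352NA.LB
import Vale.Agent.P352X.EG.MU1
import Vale.Agent.P352X.EG.MU2
import Vale.Agent.P352X.EG.LET
import Vale.Agent.P352X.EG.SG
import Vale.Agent.P352X.EG.BAS

/-!
# P352G75: letters and words, basic facts
-/

set_option linter.all false

open Filter Topology
open scoped ComplexConjugate

namespace Vale.Agent.P352X.EG.NG

open Vale.Agent.P352 Vale.Agent.P352.GF Vale.Agent.P352.BW Vale.Agent.P352.H246
open Vale.Agent.P352.H496 Vale.Agent.P352.H755 Vale.Agent.P352.H15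
open Vale.Agent.P352.SubConf (IsAdj)
open Vale.Agent.P352X.EB
open Vale.Agent.P352X.EB.NA (Pol rv rv_nil rv_append rv_cons rv_rv length_rv rv_eq_nil)
open UniformSpace (Completion)
open Bornology (IsBounded)

noncomputable section

variable {D : Type*} [NormedAddCommGroup D] [InnerProductSpace ℂ D] {c : Cg D} [Nd c] [NI c]
  {K K' : Set V} {ξ ξ' η η' ζ ζ' : Completion D} {σ : List Bool}
  {u v w : List (Completion D × Completion D)} {p : Completion D × Completion D}

/-! ## the product relation -/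

/-- the identity -/
def g1 (c : Cg D) : Sh c := ⟨⟨1, GF.one, 0, one_pos, H496.isLor_one⟩, false⟩

omit [Nd c] [NI c] in
theorem g1_act (z : V) : (g1 c).act z = z := (sim_ut 0 z).trans (add_zero z)

omit [Nd c] [NI c] in
theorem g1_U (G : SG c) : (g1 c).U c = 1 := G.ut0

theorem Rl.mono (h : Rl c K ξ η ζ) (e : K ⊆ K') : Rl c K' ξ η ζ :=
  fun g a => h g fun x b => a x (e b)

theorem Rl.U (s : SG c) (h : Rl c K ξ η ζ) (g : Sh c) :
    Rl c (g.act '' K) (g.U c ξ) (g.U c η) (g.U c ζ) := fun k hk => by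
  have := h (k.mul g) fun x hx => by
    rw [s.act_mul]
    exact hk _ ⟨x, hx, rfl⟩
  rwa [s.U_mul] at this

theorem Rl.std (G : SG c) (h : Rl c K ξ η ζ) (e : K ⊆ W0) : Prd (M0 c) c.Om ξ η ζ := by
  have := h (g1 c) fun x hx => by rw [g1_act]; exact e hx
  rwa [g1_U G] at this

theorem Rl.vac (s : SG c) : Rl c K c.Om η η := fun g _ x _ => by rw [(s.vac g).1]

theorem Rl.lin_r (z : ℂ) (h : Rl c K ξ η ζ) (h' : Rl c K ξ η' ζ') :
    Rl c K ξ (η + z • η') (ζ + z • ζ') := fun g a x hx => by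
  simp only [map_add, map_smul, inner_add_right, inner_smul_right, h g a x hx, h' g a x hx]

theorem Rl.lin_l (z : ℂ) (h : Rl c K ξ η ζ) (h' : Rl c K ξ' η ζ') :
    Rl c K (ξ + conj z • ξ') η (ζ + z • ζ') := fun g a x hx => by
  simp only [map_add, map_smul, inner_add_right, inner_smul_right, inner_add_left, inner_smul_left,
    h g a x hx, h' g a x hx, Complex.conj_conj]

theorem Rl.zero_r : Rl c K ξ 0 0 := fun g a x hx => by simp

theorem Rl.zero_l : Rl c K 0 η 0 := fun g a x hx => by simp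

theorem Rl.uniq (s : SG c) (hK : IsBounded K) (h : Rl c K ξ η ζ) (h' : Rl c K ξ η ζ') : ζ = ζ' :=
  (Mu1.eq s hK h).symm.trans (Mu1.eq s hK h')

theorem Rl.inner (s : SG c) (hK : IsBounded K) (h : Rl c K ξ η ζ) :
    inner ℂ c.Om ζ = inner ℂ ξ η := by
  obtain ⟨g, hg⟩ := s.ex K hK
  exact MU2.prd s (h g hg) (Cm.one s)

theorem rl_afs (t : E0 c) {X X' : D → D} (h : T.Afs (c.N K) X X') (y : D) :
    Rl c K (X' c.Q.vac : D) y (X y : D) := fun g a x hx => by
  have := afs_left h (Cm.comm t.sg (Cm.of t.sg hx) a) c.Q.vac y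
  simp only [ContinuousLinearMap.mul_apply, star_inner] at this
  rwa [show g.U c (c.Q.vac : D) = c.Om from (t.sg.vac g).1] at this

/-! ## letters -/

namespace Tr

theorem mono (h : Tr c K ξ ξ') (e : K ⊆ K') : Tr c K' ξ ξ' := by
  induction h with
  | zero => exact .zero
  | fld B B' f a b d hf => exact .fld B B' f a b d (Ap.in_mono hf e)
  | add _ _ _ _ _ _ a b => exact .add _ _ _ _ a b
  | smul z _ _ _ a => exact .smul z _ _ a

theorem symm (h : Tr c K ξ ξ') : Tr c K ξ' ξ := by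
  induction h with
  | zero => exact .zero
  | fld B B' f a b d hf =>
    have := Tr.fld B' B (bar f) b a (H755.adj_symm d) hf.bar
    rwa [Ap.bar_bar] at this
  | add _ _ _ _ _ _ a b => exact .add _ _ _ _ a b
  | smul z _ _ _ a =>
    have := Tr.smul (conj z) _ _ a
    rwa [Complex.conj_conj] at this

theorem sum {ι : Type*} (s : Finset ι) {f f' : ι → Completion D} (h : ∀ i ∈ s, Tr c K (f i) (f' i)) :
    Tr c K (∑ i ∈ s, f i) (∑ i ∈ s, f' i) := by
  classical
  induction s using Finset.induction_on with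
  | empty => exact .zero
  | insert i s hi ih =>
    simp only [Finset.sum_insert hi]
    exact .add _ _ _ _ (h i (Finset.mem_insert_self _ _))
      (ih fun j hj => h j (Finset.mem_insert_of_mem hj))

theorem al (h : Tr c K ξ ξ') :
    ∃ X X', Al c.Q K X X' ∧ ξ = (X c.Q.vac : D) ∧ ξ' = (X' c.Q.vac : D) := by
  induction h with
  | zero => exact ⟨_, _, .smul 0 _ _ .one, by simp [Completion.coe_zero], by simp [Completion.coe_zero]⟩
  | fld B B' f a b d hf => exact ⟨_, _, .fld B B' f _ _ a b d hf .one, rfl, rfl⟩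
  | add _ _ _ _ _ _ a b =>
    obtain ⟨X, X', a1, rfl, rfl⟩ := a
    obtain ⟨Y, Y', b1, rfl, rfl⟩ := b
    exact ⟨_, _, .add _ _ _ _ a1 b1, (Completion.coe_add _ _).symm, (Completion.coe_add _ _).symm⟩
  | smul z _ _ _ a =>
    obtain ⟨X, X', a1, rfl, rfl⟩ := a
    exact ⟨_, _, .smul z _ _ a1, (Completion.coe_smul _ _).symm, (Completion.coe_smul _ _).symm⟩

end Tr

theorem in_inv (s : SG c) (g : Sh c) {f : Fn} (hf : In K f) : In (g.act '' K) (g.inv.pull f) :=
  Ap.in_mono (s.inn g.inv K f hf) fun y hy => ⟨_, hy, s.act_inv g y⟩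

theorem U_vac (t : E0 c) (g : Sh c) {n : ℕ} {κ : Fin n → ℂ} {y : Fin n → Completion D}
    (h : ξ = ∑ i, κ i • g.inv.U c (y i)) : g.U c ξ = ∑ i, κ i • y i := by
  rw [h, map_sum]
  refine Finset.sum_congr rfl fun i _ => ?_
  rw [map_smul, t.sg.U_inv, MU2.us t.sg]

theorem lb_fld (q : H.Lb c) : c.Q.fld q.B ∧ c.Q.fld q.B' :=
  ⟨let ⟨_, _, _, m, e⟩ := q.h; e ▸ m.mf.1 _, let ⟨_, _, _, m, e⟩ := q.h'; e ▸ m.mf.1 _⟩

theorem lb_par (q : H.Lb c) : Pa c q.e q.B ∧ Pa c q.e q.B' :=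
  ⟨let ⟨_, _, _, m, e⟩ := q.h; e ▸ m.par _, let ⟨_, _, _, m, e⟩ := q.h'; e ▸ m.par _⟩

theorem Tr.U (t : E0 c) (hc : COV c) (h : Tr c K ξ ξ') (g : Sh c) :
    Tr c (g.act '' K) (g.U c ξ) (g.U c ξ') := by
  induction h with
  | zero => simpa using Tr.zero
  | fld B B' f a b d hf =>
    obtain ⟨-, n, q, κ, -, h2⟩ := hc B B' a b d
    rw [U_vac t g (h2 g.inv f hf.1).1, U_vac t g (h2 g.inv _ hf.bar.1).2]
    exact Tr.sum _ fun i _ => .smul _ _ _
      (.fld _ _ _ (lb_fld (q i)).1 (lb_fld (q i)).2 (q i).a (in_inv t.sg g hf))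
  | add _ _ _ _ _ _ a b => simpa only [map_add] using Tr.add _ _ _ _ a b
  | smul z _ _ _ a => simpa only [map_smul] using Tr.smul z _ _ a

theorem pot (t : E0 c) (g : Sh c) {f : Fn} (hf : IsTest f) :
    c.l f = ((g.s ^ 2 : ℝ) : ℂ) • g.U c (c.l (g.pull f)) := by
  have h := Let.tw t.sg g (e := false) ((c.hl.gam _ (t.sg.test g f hf)).trans (one_smul _ _).symm)
  rw [Bool.and_false, show sg false = 1 from rfl, one_smul] at h
  rw [← h]
  exact c.hl.cov g.s g.L g.a f g.hs g.hL hf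

theorem l_zero : c.l (fun _ => 0) = 0 := by simpa using c.hl.lin _ _ 1 Ap.sw_zero Ap.sw_zero

theorem l_smul (z : ℂ) {f : Fn} (hf : IsTest f) : c.l (fun x => z * f x) = z • c.l f := by
  simpa [l_zero] using c.hl.lin (fun _ => 0) f z Ap.sw_zero hf

theorem l_U (t : E0 c) (g : Sh c) {f : Fn} (hf : IsTest f) :
    g.U c (c.l f) = c.l fun x => ((g.inv.s ^ 2 : ℝ) : ℂ) * g.inv.pull f x := by
  rw [pot t g.inv hf, map_smul, l_smul _ (t.sg.test _ _ hf), t.sg.U_inv, MU2.us t.sg]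

theorem tr_box {f : Fn} (hf : In K f) : Tr c K (c.l (box f)) (c.l (bar (box f))) := by
  have e : ∀ f, IsTest f → c.l (box f) = ∑ k, (3⁻¹ * eta k : ℂ) •
      ((c.T k k f c.Q.vac : D) : Completion D) := fun f hf => by
    rw [← inv_smul_smul₀ (three_ne_zero (α := ℂ)) (c.l _), c.hl.trace f hf, GF.tr,
      ← Completion.coe_toComplL (𝕜 := ℂ)]
    simp only [map_sum, map_smul, Finset.smul_sum, smul_smul]
  rw [← Dd.box_bar (Ap.in_dc hf).1, e _ hf.1, e _ hf.bar.1]
  refine Tr.sum _ fun k _ => ?_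
  have b := c.Q.bose_fld _ (c.hT.bose k k)
  simpa [map_ofNat] using Tr.smul (3⁻¹ * eta k) _ _ (.fld _ _ f b b (c.hT.herm k k) hf)

namespace Ty

variable {e : Bool}

theorem mono (h : Ty c K e p) (a : K ⊆ K') : Ty c K' e p := by
  cases e
  · exact Tr.mono h a
  · exact h.imp fun _ h => ⟨Ap.in_mono h.1 a, h.2⟩

theorem swap (h : Ty c K e p) : Ty c K e p.swap := by
  cases e
  · exact Tr.symm h
  · obtain ⟨f, a, rfl⟩ := h
    exact ⟨bar f, a.bar, by rw [Ap.bar_bar]; rfl⟩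

theorem U (t : E0 c) (hc : COV c) (h : Ty c K e p) (g : Sh c) :
    Ty c (g.act '' K) e (g.U c p.1, g.U c p.2) := by
  cases e
  · exact Tr.U t hc h g
  · obtain ⟨f, a, rfl⟩ := h
    refine ⟨_, Ap.in_cmul ((g.inv.s ^ 2 : ℝ) : ℂ) (in_inv t.sg g a), ?_⟩
    rw [l_U t g a.1, l_U t g a.bar.1, Ap.bar_rmul (fun _ => g.inv.s ^ 2)]
    rfl

theorem rl (t : E0 c) (hc : COV c) (h : Ty c K e p) : Rl c K p.2 c.Om p.1 := by
  cases e
  · obtain ⟨X, X', a, h1, h2⟩ := Tr.al h
    rw [h1, h2]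
    exact rl_afs t (t.sg.affa _ _ _ a) _
  · intro g hg x hx
    obtain ⟨f, a, e⟩ := h.U t hc g
    have := c.hl.pr _ (Ap.in_mono a (by rintro _ ⟨y, hy, rfl⟩; exact hg y hy))
    rw [(t.sg.vac g).1, (Prod.mk.inj e).1, (Prod.mk.inj e).2, pr_iff'.1 this x hx, inner_star]

theorem wv_one (t : E0 c) (hc : COV c) (hK : IsBounded K) (h : Ty c K e p) : wv c [p] = p.1 :=
  Mu1.eq t.sg hK (h.rl t hc)

end Ty

theorem Tp.ty {e : Bool} (h : Tp c K e p) : ∃ σ, Ty c K σ p := by
  rcases h with h | ⟨B, B', f, a, b, d, -, hf, rfl⟩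
  exacts [⟨_, h.2⟩, ⟨false, Tr.fld B B' f a b d hf⟩]

theorem Tp.mono {e : Bool} (h : Tp c K e p) (k : K ⊆ K') : Tp c K' e p := by
  rcases h with h | ⟨B, B', f, a, b, d, x, hf, rfl⟩
  exacts [.inl ⟨h.1, h.2.mono k⟩, .inr ⟨B, B', f, a, b, d, x, Ap.in_mono hf k, rfl⟩]

theorem Tp.swap {e : Bool} (h : Tp c K e p) : Tp c K e p.swap := by
  rcases h with h | ⟨B, B', f, a, b, d, x, hf, rfl⟩
  · exact .inl ⟨h.1, h.2.swap⟩
  · exact .inr ⟨B', B, bar f, b, a, H755.adj_symm d, Bas.padj e B B' d x, hf.bar, by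
      rw [Ap.bar_bar]; rfl⟩

/-! ## the twisted algebras -/

section tw

variable {O O' : Set V} {X Z : Completion D →L[ℂ] Completion D}

omit [Nd c] [NI c]

theorem nt_mono (e : O ⊆ O') : ∀ Z ∈ Nt c O, Z ∈ Nt c O' := fun _ h => c.N_mono e _ h

theorem tw_tw (X : Completion D →L[ℂ] Completion D) : tw c (tw c X) = X := by
  have a : ∀ Y : Completion D →L[ℂ] Completion D, Y * c.Γ * c.Γ = Y := fun Y => by
    rw [mul_assoc, SGx.g2, mul_one]
  simp only [tw, mul_add, add_mul, mul_sub, sub_mul, mul_smul_comm, smul_mul_assoc, ← mul_assoc,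
    SGx.g2, one_mul, a]
  module

theorem tw_vac (X : Completion D →L[ℂ] Completion D) : tw c X c.Om = X c.Om := by
  simp only [tw, ContinuousLinearMap.add_apply, ContinuousLinearMap.smul_apply,
    ContinuousLinearMap.mul_apply, ContinuousLinearMap.sub_apply, SGx.gv]
  module

theorem nt_rs (hO : IsOpen O) (hne : O.Nonempty) : Dense {z | ∃ X ∈ Nt c O, X c.Om = z} :=
  (SGx.rs (c := c) hO hne).mono (by
    rintro _ ⟨X, a, rfl⟩
    exact ⟨tw c X, show tw c (tw c X) ∈ c.N O by rwa [tw_tw], tw_vac X⟩)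

theorem nt_com (s : SG c) (g : Sh c) (h : Z ∈ Nt c g.Op) : Cm c g Z := by
  have := add_mem ((M0 c).commutant.toStarSubalgebra.smul_mem (s.ev g _ h) (2⁻¹ : ℂ))
    ((M0 c).commutant.toStarSubalgebra.smul_mem (s.od g _ h) (2⁻¹ : ℂ))
  rw [← tw_tw (c := c) Z, Cm, tw, mul_add, add_mul]
  simp only [mul_smul_comm, smul_mul_assoc]
  exact this

end tw

/-! ## words -/

/-- the image of a word under a similitude -/
def mp (c : Cg D) (g : Sh c) (w : List (Completion D × Completion D)) :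
    List (Completion D × Completion D) := w.map fun p => (g.U c p.1, g.U c p.2)

theorem rv_mp (g : Sh c) (w : List (Completion D × Completion D)) : rv (mp c g w) = mp c g (rv w) := by
  simp [rv, mp, List.map_reverse, Function.comp_def]

theorem wv_nil : wv c [] = c.Om := rfl

theorem wv_cons (p : Completion D × Completion D) (v) : wv c (p :: v) = ml c p.2 (wv c v) := rfl

namespace Tw

theorem mono (h : Tw c K σ w) (a : K ⊆ K') : Tw c K' σ w := List.Forall₂.imp (fun _ _ b => b.mono a) h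

theorem length (h : Tw c K σ w) : σ.length = w.length := List.Forall₂.length_eq h

theorem append {τ : List Bool} (h : Tw c K σ u) (h' : Tw c K τ v) : Tw c K (σ ++ τ) (u ++ v) :=
  List.rel_append h h'

theorem take (h : Tw c K σ w) (i : ℕ) : Tw c K (σ.take i) (w.take i) := List.forall₂_take i h

theorem drop (h : Tw c K σ w) (i : ℕ) : Tw c K (σ.drop i) (w.drop i) := List.forall₂_drop i h

theorem rev (h : Tw c K σ w) : Tw c K σ.reverse (rv w) :=
  List.rel_reverse (List.forall₂_map_right_iff.2 (List.Forall₂.imp (fun _ _ b => b.swap) h))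

theorem U (t : E0 c) (hc : COV c) (h : Tw c K σ w) (g : Sh c) : Tw c (g.act '' K) σ (mp c g w) :=
  List.forall₂_map_right_iff.2 (List.Forall₂.imp (fun _ _ b => b.U t hc g) h)

theorem split (h : Tw c K σ (u ++ v)) :
    Tw c K (σ.take u.length) u ∧ Tw c K (σ.drop u.length) v :=
  ⟨by simpa using h.take u.length, by simpa using h.drop u.length⟩

end Tw

end

end Vale.Agent.P352X.EG.NG
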