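import Vale.Agent.P352G75.LB

/-!
# P352G75: short words
-/

set_option linter.all false

open Filter Topology
open scoped ComplexConjugate

namespace Vale.Agent.P352X.EG.NG

open Vale.Agent.P352 Vale.Agent.P352.GF Vale.Agent.P352.BW Vale.Agent.P352.H246
open Vale.Agent.P352.H496 Vale.Agent.P352.H755 Vale.Agent.P352.H15
open Vale.Agent.P352.SubConf (IsAdj)
open Vale.Agent.P352X.EB
open Vale.Agent.P352X.EB.NA (Pol rv rv_nil rv_append rv_cons rv_rv length_rv rv_eq_nil)
open UniformSpace (Completion)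
open Bornology (IsBounded)

noncomputable section

variable {D : Type*} [NormedAddCommGroup D] [InnerProductSpace ℂ D] {c : Cg D} [Nd c] [NI c]
  {K K' : Set V} {ξ ξ' η η' ζ ζ' : Completion D} {σ τ : List Bool} {n m : ℕ}
  {u v w : List (Completion D × Completion D)} {p q r : Completion D × Completion D}

/-- words with at most `n` potentials and at most `m` letters -/
structure Ok (c : Cg D) [Nd c] (n m : ℕ) (K : Set V) (w : List (Completion D × Completion D)) : Prop where
  cpt : IsCompact K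
  ty : ∃ σ, σ.count true ≤ n ∧ Tw c K σ w
  len : w.length ≤ m

/-- all short words split -/
def Ss (c : Cg D) [Nd c] (n m : ℕ) : Prop := ∀ K w, Ok c n m K w → Sp c K w

namespace Ok

theorem mono (h : Ok c n m K w) (hK : IsCompact K') (e : K ⊆ K') : Ok c n m K' w :=
  ⟨hK, h.ty.imp fun _ a => ⟨a.1, a.2.mono e⟩, h.len⟩

theorem take (h : Ok c n m K w) (i : ℕ) : Ok c n (min i m) K (w.take i) :=
  ⟨h.cpt, let ⟨σ, a, b⟩ := h.ty; ⟨σ.take i, ((List.take_sublist _ _).count_le _).trans a, b.take i⟩,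
    by rw [List.length_take]; exact min_le_min_left _ h.len⟩

theorem drop (h : Ok c n m K w) (i : ℕ) : Ok c n (m - i) K (w.drop i) :=
  ⟨h.cpt, let ⟨σ, a, b⟩ := h.ty; ⟨σ.drop i, ((List.drop_sublist _ _).count_le _).trans a, b.drop i⟩,
    by rw [List.length_drop]; exact Nat.sub_le_sub_right h.len _⟩

theorem le {m' : ℕ} (h : Ok c n m K w) (e : w.length ≤ m') : Ok c n m' K w := ⟨h.cpt, h.ty, e⟩

theorem left (h : Ok c n m K (u ++ v)) : Ok c n m K u := by
  have := h.take u.length
  rw [List.take_left] at this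
  exact this.le (this.len.trans (min_le_right _ _))

theorem right (h : Ok c n m K (u ++ v)) : Ok c n m K v := by
  have := h.drop u.length
  rw [List.drop_left] at this
  exact this.le (this.len.trans (Nat.sub_le _ _))

theorem tail (h : Ok c n m K (p :: v)) : Ok c n m K v := right (u := [p]) h

theorem head (h : Ok c n m K (p :: v)) : ∃ e, Ty c K e p := by
  obtain ⟨σ, -, b⟩ := h.ty
  cases b with
  | cons a _ => exact ⟨_, a⟩

theorem rev (h : Ok c n m K w) : Ok c n m K (rv w) :=
  ⟨h.cpt, let ⟨σ, a, b⟩ := h.ty; ⟨σ.reverse, by rwa [List.count_reverse], b.rev⟩,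
    by rw [length_rv]; exact h.len⟩

theorem U (t : E0 c) (hc : COV c) (h : Ok c n m K w) (g : Sh c) : Ok c n m (g.act '' K) (mp c g w) :=
  ⟨h.cpt.image g.cont, h.ty.imp fun _ a => ⟨a.1, a.2.U t hc g⟩, by
    rw [mp, List.length_map]; exact h.len⟩

theorem bd (h : Ok c n m K w) : IsBounded K := h.cpt.isBounded

end Ok

namespace Ss

variable (t : E0 c) (hc : COV c) (s : Ss c n m)
include t hc s

theorem step (h : Ok c n m K (p :: v)) : Rl c K p.2 (wv c v) (wv c (p :: v)) := by
  obtain ⟨e, a⟩ := h.head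
  have := s K _ h [p] v rfl
  rwa [show rv [p] = [p.swap] from rfl, a.swap.wv_one t hc h.bd] at this

theorem wv_U (h : Ok c n m K w) (g : Sh c) : wv c (mp c g w) = g.U c (wv c w) := by
  induction w with
  | nil => exact (t.sg.vac g).1.symm
  | cons p v ih =>
    have := Rl.U t.sg (s.step t hc h) g
    rw [← ih h.tail] at this
    exact Mu1.eq t.sg (t.sg.bdd g K h.bd) this

theorem lin (z : ℂ) (h1 : Ok c n m K (u ++ p :: v)) (h2 : Ok c n m K (u ++ q :: v))
    (h3 : Ok c n m K (u ++ r :: v)) (e : r.2 = p.2 + conj z • q.2) :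
    wv c (u ++ r :: v) = wv c (u ++ p :: v) + z • wv c (u ++ q :: v) := by
  have a : wv c (r :: v) = wv c (p :: v) + z • wv c (q :: v) := by
    refine Rl.uniq t.sg h3.bd (s.step t hc h3.right) ?_
    rw [e]
    exact Rl.lin_l z (s.step t hc h1.right) (s.step t hc h2.right)
  refine Rl.uniq t.sg h3.bd (s K _ h3 u _ rfl) ?_
  rw [a]
  exact Rl.lin_r z (s K _ h1 u _ rfl) (s K _ h2 u _ rfl)

end Ss

/-! ## words of true letters -/

/-- products of operators -/
def cp (xs : List ((D → D) × (D → D))) (y : D) : D := xs.foldr (fun x z => x.1 z) y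

/-- the word of a list of operators -/
def vw (c : Cg D) (xs : List ((D → D) × (D → D))) : List (Completion D × Completion D) :=
  xs.map fun x => ((x.1 c.Q.vac : D), (x.2 c.Q.vac : D))

theorem cp_append (xs ys : List ((D → D) × (D → D))) (y : D) : cp (xs ++ ys) y = cp xs (cp ys y) :=
  List.foldr_append

theorem rv_vw (xs : List ((D → D) × (D → D))) : rv (vw c xs) = vw c (rv xs) := by
  simp [rv, vw, List.map_reverse, Function.comp_def]

theorem cp_afs {M : VonNeumannAlgebra (Completion D)} {xs : List ((D → D) × (D → D))}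
    (h : ∀ x ∈ xs, T.Afs M x.1 x.2) : T.Afs M (cp xs) (cp (rv xs)) := by
  induction xs with
  | nil => exact afs_id
  | cons x xs ih =>
    have := afs_comp (h x List.mem_cons_self) (ih fun y hy => h y (List.mem_cons_of_mem _ hy))
    rw [rv_cons]
    rwa [show cp (rv xs ++ [x.swap]) = fun v => cp (rv xs) (x.2 v) from funext (cp_append _ _)]

theorem wv_vw (t : E0 c) (hK : IsBounded K) {xs : List ((D → D) × (D → D))}
    (h : ∀ x ∈ xs, T.Afs (c.N K) x.1 x.2) : wv c (vw c xs) = (cp xs c.Q.vac : D) := by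
  induction xs with
  | nil => rfl
  | cons x xs ih =>
    show ml c _ (wv c (vw c xs)) = _
    rw [ih fun y hy => h y (List.mem_cons_of_mem _ hy)]
    exact Mu1.eq t.sg hK (rl_afs t (h x List.mem_cons_self) _)

theorem ex_vw (t : E0 c) (h : Tw c K σ w) (h0 : σ.count true = 0) :
    ∃ xs, (∀ x ∈ xs, T.Afs (c.N K) x.1 x.2) ∧ w = vw c xs := by
  induction h with
  | nil => exact ⟨[], by simp, rfl⟩
  | @cons e p σ w a _ ih =>
    cases e
    · obtain ⟨xs, b, rfl⟩ := ih (by simpa using h0)
      obtain ⟨X, X', a1, a2, a3⟩ := Tr.al a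
      refine ⟨(X, X') :: xs, fun x hx => ?_, congrArg (· :: _) (Prod.ext a2 a3)⟩
      rcases List.mem_cons.1 hx with rfl | hx
      exacts [t.sg.affa _ _ _ a1, b x hx]
    · simp at h0

theorem sp_true (t : E0 c) (hK : IsBounded K) (h : Tw c K σ w) (h0 : σ.count true = 0) :
    Sp c K w := by
  obtain ⟨xs, b, rfl⟩ := ex_vw t h h0
  intro u v e
  obtain ⟨x1, x2, rfl, rfl, rfl⟩ := List.map_eq_append_iff.1 e
  have b1 : ∀ x ∈ x1, T.Afs (c.N K) x.1 x.2 := fun x hx => b x (List.mem_append_left _ hx)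
  have b2 : ∀ x ∈ x2, T.Afs (c.N K) x.1 x.2 := fun x hx => b x (List.mem_append_right _ hx)
  have b3 : ∀ x ∈ rv x1, T.Afs (c.N K) x.1 x.2 := fun x hx => by
    obtain ⟨y, hy, rfl⟩ := List.mem_map.1 (List.mem_reverse.1 hx)
    exact afs_symm (b1 y hy)
  show Rl c K (wv c (rv (vw c x1))) (wv c (vw c x2)) _
  rw [rv_vw, wv_vw t hK b3, wv_vw t hK b2, wv_vw t hK b, cp_append]
  exact rl_afs t (cp_afs b1) _

theorem sp_one (t : E0 c) (hc : COV c) (h : Ok c n 1 K w) : Sp c K w := by
  intro u v e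
  rcases u with _ | ⟨p, u⟩
  · obtain rfl : w = v := e
    exact Rl.vac t.sg
  · have l := h.len
    rw [e, List.length_append, List.length_cons] at l
    obtain rfl : u = [] := List.length_eq_zero_iff.1 (by omega)
    obtain rfl : v = [] := List.length_eq_zero_iff.1 (by omega)
    subst e
    obtain ⟨e, a⟩ := Ok.head h
    show Rl c K (wv c [p.swap]) c.Om (wv c [p])
    rw [a.wv_one t hc h.bd, a.swap.wv_one t hc h.bd]
    exact a.rl t hc

/-! ## proper splittings -/

/-- `ζ` is the product for all proper splittings, tested with the algebra of `C` -/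
def Sq (c : Cg D) (C : Set V) (w : List (Completion D × Completion D)) (ζ : Completion D) : Prop :=
  ∀ Z ∈ Nt c C, ∀ i, 0 < i → i < w.length →
    inner ℂ (Z c.Om) ζ = inner ℂ (Z (wv c (rv (w.take i)))) (wv c (w.drop i))

/-- all proper splittings are products -/
def Pp (c : Cg D) (K : Set V) (w : List (Completion D × Completion D)) : Prop :=
  ∀ u v, u ≠ [] → v ≠ [] → w = u ++ v → Rl c K (wv c (rv u)) (wv c v) (wv c w)

theorem pp_of (t : E0 c) (hc : COV c) (s : Ss c n m) (h : Ok c n (m + 1) K w)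
    (H : ∀ g : Sh c, g.Adm K → ∃ ζ, Sq c W1 (mp c g w) ζ) : Pp c K w := by
  have key : ∀ u v, u ≠ [] → v ≠ [] → w = u ++ v → ∀ (g : Sh c) ζ, Sq c W1 (mp c g w) ζ →
      Prd (M0 c) c.Om (g.U c (wv c (rv u))) (g.U c (wv c v)) ζ := by
    rintro u v hu hv rfl g ζ a x hx
    have l := h.len
    have l1 := List.length_pos_iff.2 hu
    have l2 := List.length_pos_iff.2 hv
    rw [List.length_append] at l
    rw [NI.dual] at hx
    have := a x hx u.length l1 (by simp [mp, l2])
    rwa [mp, ← List.map_take, ← List.map_drop, List.take_left, List.drop_left,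
      show List.map _ u = mp c g u from rfl, show List.map _ v = mp c g v from rfl, rv_mp,
      s.wv_U t hc (h.left.le (by omega)).rev, s.wv_U t hc (h.right.le (by omega))] at this
  rintro u v hu hv e g hg
  obtain ⟨p, u, rfl⟩ := List.exists_cons_of_ne_nil hu
  obtain ⟨b, a⟩ := Ok.head (e ▸ h)
  have k := key [p] (u ++ v) (by simp) (by simp [hv]) e
  rw [show rv [p] = [p.swap] from rfl, a.swap.wv_one t hc h.bd] at k
  obtain ⟨ζ, hζ⟩ := Mu1.glue t h.bd fun g hg => (H g hg).imp (k g)
  obtain ⟨ζ', h'⟩ := H g hg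
  rw [show wv c w = ζ from e ▸ Mu1.eq t.sg h.bd hζ, Mu1.prd_uniq t.sg (hζ g hg) (k g ζ' h')]
  exact key _ _ hu hv e g ζ' h'

theorem sp_of (t : E0 c) (h2 : 2 ≤ w.length) (h : Pp c K w) (h' : Pp c K (rv w)) : Sp c K w := by
  intro u v e
  by_cases hu : u = []
  · subst hu
    obtain rfl : w = v := e
    exact Rl.vac t.sg
  by_cases hv : v ≠ []
  · exact h u v hu hv e
  obtain rfl := not_not.1 hv
  rw [List.append_nil] at e
  subst e
  obtain ⟨p, v, rfl⟩ := List.exists_cons_of_ne_nil hu
  have hv : v ≠ [] := List.length_pos_iff.1 (by rw [List.length_cons] at h2; omega)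
  intro g hg x hx
  have a := h [p] v (by simp) hv rfl g hg x hx
  have b := h' (rv v) (rv [p]) (by rwa [Ne, rv_eq_nil]) (by simp [rv]) (rv_append [p] v) g hg _
    (star_mem hx)
  rw [rv_rv, star_inner, star_inner] at b
  rw [a, wv_nil, (t.sg.vac g).1, ← inner_conj_symm, ← b, inner_conj_symm]

end

end Vale.Agent.P352X.EG.NG
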