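import Vale.Agent.P352G75.WA
import Vale.Agent.P352NA.WF

/-!
# P352G75: polynomial families of letters and words
-/

set_option linter.all false

open Filter Topology Set
open scoped ComplexConjugate

namespace Vale.Agent.P352X.EG.NG

open Vale.Agent.P352 Vale.Agent.P352.GF Vale.Agent.P352.BW Vale.Agent.P352.H246
open Vale.Agent.P352.H496 Vale.Agent.P352.H755 Vale.Agent.P352.H15
open Vale.Agent.P352.SubConf (IsAdj)
open Vale.Agent.P352X.EB
open Vale.Agent.P352X.EB.NA (Pol rv rv_nil rv_append rv_cons rv_rv length_rv rv_eq_nil rc_le rc_rh rc_be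
  rc_cph cph_cpt bar_pb in_pb rf rf_at)
open UniformSpace (Completion)
open Bornology (IsBounded)

noncomputable section

variable {D : Type*} [NormedAddCommGroup D] [InnerProductSpace ℂ D] {c : Cg D} [Nd c] [NI c]
  {K K' : Set V} {ξ ξ' η η' ζ ζ' : Completion D} {σ τ : List Bool} {n m N N' : ℕ} {T s : ℝ}
  {u v w : List (Completion D × Completion D)} {p : Completion D × Completion D} {z : V}

theorem prd_sk (hs : 0 ≤ s) (h : Prd (M0 c) c.Om ξ η ζ) :
    Prd (M0 c) c.Om (c.SK s ξ) (c.SK s η) (c.SK s ζ) := fun x hx => by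
  simpa only [ContinuousLinearMap.mul_apply, star_inner, c.K_vac] using h _ (NI.skc s hs x hx)

/-- polynomial families of letters -/
structure Fa (c : Cg D) [Nd c] (K : Set V) (T : ℝ) (N : ℕ) (e : Bool)
    (q : ℝ → Completion D × Completion D) : Prop where
  ty : ∀ s ∈ Icc 0 T, Ty c (cph s '' K) e (q s)
  p1 : Pol N (Icc 0 T) fun s => c.SK s (q s).1
  p2 : Pol N (Icc 0 T) fun s => c.SK s (q s).2

namespace Fa

variable {e : Bool} {q : ℝ → Completion D × Completion D}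

theorem mono (h : Fa c K T N e q) (a : K ⊆ K') (b : N ≤ N') : Fa c K' T N' e q :=
  ⟨fun s hs => (h.ty s hs).mono (image_mono a), h.p1.mono b, h.p2.mono b⟩

theorem swap (h : Fa c K T N e q) : Fa c K T N e fun s => (q s).swap :=
  ⟨fun s hs => (h.ty s hs).swap, h.p2, h.p1⟩

end Fa

theorem sk_l (t : E0 c) {f : Fn} (hf : In K f) (h : ∀ z ∈ K, z ∈ Rc s 0) (hs : 0 ≤ s) :
    c.SK s (c.l (pb 2 (-s) f)) = c.l f := by
  rw [c.hl.flow _ s (Ap.in_mono (in_pb 2 hf fun z hz => rc_rh (h z hz)) (by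
    rintro _ ⟨z, hz, rfl⟩
    exact (Ap.mem_W.1 (rc_cph (h z hz))).1.trans_eq be_zero)) hs]
  congr 1
  funext z
  by_cases hz : 0 < rh s z
  · rw [Ch0.pb_pb hz, add_neg_cancel, Ch0.pb_zero]
  · rw [pb, if_neg hz, image_eq_zero_of_notMem_tsupport fun a => hz (rc_rh (h z (hf.2.2 a)))]

/-- the family of a potential -/
def lf (c : Cg D) [Nd c] (f : Fn) (s : ℝ) : Completion D × Completion D :=
  (c.l (pb 2 (-s) f), c.l (bar (pb 2 (-s) f)))

theorem lf_zero (f : Fn) : lf c f 0 = (c.l f, c.l (bar f)) := by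
  rw [lf, neg_zero, Ch0.pb_zero]

theorem fa_l (t : E0 c) {f : Fn} (hf : In K f) (h : ∀ z ∈ K, z ∈ Rc T 0) :
    Fa c K T 0 true (lf c f) :=
  ⟨fun s hs => ⟨_, in_pb 2 hf fun z hz => rc_rh (rc_le hs (h z hz)), rfl⟩,
    (NA.Pol.const _).congr fun s hs => sk_l t hf (fun z hz => rc_le hs (h z hz)) hs.1,
    (NA.Pol.const _).congr fun s hs => by
      rw [lf, bar_pb]
      exact sk_l t hf.bar (fun z hz => rc_le hs (h z hz)) hs.1⟩

theorem fa_zero : Fa c K T N false fun _ => (0, 0) :=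
  ⟨fun _ _ => Tr.zero, by simpa using NA.Pol.zero, by simpa using NA.Pol.zero⟩

theorem Fa.lin {q q' : ℝ → Completion D × Completion D} (h : Fa c K T N false q)
    (h' : Fa c K T N false q') (a : ℂ) :
    Fa c K T N false fun s => ((q s).1 + a • (q' s).1, (q s).2 + conj a • (q' s).2) :=
  ⟨fun s hs => Tr.add _ _ _ _ (h.ty s hs) (Tr.smul _ _ _ (h'.ty s hs)),
    by simpa only [map_add, map_smul] using h.p1.add (h'.p1.smul a),
    by simpa only [map_add, map_smul] using h.p2.add (h'.p2.smul (conj a))⟩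

theorem Fa.sum {ι : Type*} (S : Finset ι) (κ : ι → ℂ) {q : ι → ℝ → Completion D × Completion D}
    (h : ∀ i ∈ S, Fa c K T N false (q i)) :
    Fa c K T N false fun s => (∑ i ∈ S, κ i • (q i s).1, ∑ i ∈ S, conj (κ i) • (q i s).2) :=
  ⟨fun s hs => Tr.sum _ fun i hi => Tr.smul _ _ _ ((h i hi).ty s hs),
    by simpa only [map_sum, map_smul] using NA.Pol.sum S fun i hi => (h i hi).p1.smul (κ i),
    by simpa only [map_sum, map_smul] using NA.Pol.sum S fun i hi => (h i hi).p2.smul (conj (κ i))⟩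

section

variable (t : E0 c) (hc : COV c) (pf : PF c)
include t hc pf

theorem fa_tr (h : Tr c K ξ ξ') : ∃ N, ∀ (g : Sh c) T, (∀ z ∈ K, g.act z ∈ Rc T 0) →
    ∃ q, Fa c (g.act '' K) T N false q ∧ q 0 = (g.U c ξ, g.U c ξ') := by
  induction h with
  | zero => exact ⟨0, fun g T _ => ⟨_, fa_zero, by simp⟩⟩
  | fld B B' f a b d hf =>
    obtain ⟨-, n, C, κ, -, h2⟩ := hc B B' a b d
    choose N hN using fun i => pf _ _ (lb_fld (C i)).1 (lb_fld (C i)).2 (C i).a
    refine ⟨Finset.univ.sup N, fun g T hT => ?_⟩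
    have hi := in_inv t.sg g hf
    have hK : ∀ z ∈ g.act '' K, z ∈ Rc T 0 := by
      rintro _ ⟨z, hz, rfl⟩
      exact hT z hz
    choose η η' e1 e2 e3 e4 e5 using fun i => hN i _ (Ap.in_mono hi fun z hz => rc_be (hK z hz))
    have sb : Icc 0 T ⊆ {s | 0 ≤ s ∧ Reg (-s) (g.inv.pull f)} := fun s hs => ⟨hs.1, fun z hz => by
      rw [neg_neg]
      exact rc_rh (rc_le hs (hK z (hi.2.2 hz)))⟩
    refine ⟨_, Fa.sum Finset.univ (κ g.inv) (q := fun i s => (η i s, η' i s)) fun i _ =>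
      Fa.mono ⟨fun s hs => e3 i s hs.1 (sb hs).2, (e4 i).sub sb, (e5 i).sub sb⟩ hi.2.2
        (Finset.le_sup (Finset.mem_univ i)), ?_⟩
    rw [U_vac t g (h2 g.inv f hf.1).1, U_vac t g (h2 g.inv _ hf.bar.1).2]
    simp only [e1, e2]
    rfl
  | add _ _ _ _ _ _ a b =>
    obtain ⟨N, a⟩ := a
    obtain ⟨N', b⟩ := b
    refine ⟨max N N', fun g T hT => ?_⟩
    obtain ⟨q, a1, a2⟩ := a g T hT
    obtain ⟨q', b1, b2⟩ := b g T hT
    exact ⟨_, (a1.mono subset_rfl (le_max_left _ _)).lin (b1.mono subset_rfl (le_max_right _ _)) 1,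
      by simp [a2, b2]⟩
  | smul z _ _ _ a =>
    obtain ⟨N, a⟩ := a
    refine ⟨N, fun g T hT => ?_⟩
    obtain ⟨q, a1, a2⟩ := a g T hT
    exact ⟨_, fa_zero.lin a1 z, by simp [a2]⟩

theorem fa_ty {e : Bool} (h : Ty c K e p) : ∃ N, ∀ (g : Sh c) T, (∀ z ∈ K, g.act z ∈ Rc T 0) →
    ∃ q, Fa c (g.act '' K) T N e q ∧ q 0 = (g.U c p.1, g.U c p.2) := by
  cases e
  · exact fa_tr t hc pf h
  · refine ⟨0, fun g T hT => ?_⟩
    obtain ⟨f, a, b⟩ := h.U t hc g
    exact ⟨_, fa_l t a (by rintro _ ⟨z, hz, rfl⟩; exact hT z hz), (lf_zero f).trans b.symm⟩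

theorem fa_tw (h : Tw c K σ w) : ∃ N, ∀ (g : Sh c) T, (∀ z ∈ K, g.act z ∈ Rc T 0) →
    ∃ ws, List.Forall₂ (Fa c (g.act '' K) T N) σ ws ∧ ws.map (· 0) = mp c g w := by
  induction h with
  | nil => exact ⟨0, fun g T _ => ⟨[], .nil, rfl⟩⟩
  | cons a _ b =>
    obtain ⟨N, a⟩ := fa_ty t hc pf a
    obtain ⟨N', b⟩ := b
    refine ⟨max N N', fun g T hT => ?_⟩
    obtain ⟨q, a1, a2⟩ := a g T hT
    obtain ⟨ws, b1, b2⟩ := b g T hT
    exact ⟨q :: ws, .cons (a1.mono subset_rfl (le_max_left _ _))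
      (b1.imp fun _ _ k => k.mono subset_rfl (le_max_right _ _)), by
        rw [List.map_cons, a2, b2]; rfl⟩

end

/-- polynomial families of words -/
structure Fw (c : Cg D) [Nd c] (n m : ℕ) (K : Set V) (T : ℝ) (N : ℕ)
    (ws : List (ℝ → Completion D × Completion D)) : Prop where
  cpt : IsCompact K
  reg : ∀ z ∈ K, z ∈ Rc T 0
  ty : ∃ σ, σ.count true ≤ n ∧ List.Forall₂ (Fa c K T N) σ ws
  len : ws.length ≤ m

theorem tw_at {ws : List (ℝ → Completion D × Completion D)} (h : List.Forall₂ (Fa c K T N) σ ws)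
    (hs : s ∈ Icc 0 T) : Tw c (cph s '' K) σ (ws.map (· s)) :=
  List.forall₂_map_right_iff.2 (h.imp fun _ _ k => k.ty s hs)

namespace Fw

variable {ws : List (ℝ → Completion D × Completion D)}

theorem cp (h : Fw c n m K T N ws) (hs : s ∈ Icc 0 T) : IsCompact (cph s '' K) :=
  cph_cpt h.cpt fun z hz => rc_rh (rc_le hs (h.reg z hz))

theorem sub (h : Fw c n m K T N ws) (hs : s ∈ Icc 0 T) : cph s '' K ⊆ W0 := by
  rintro _ ⟨z, hz, rfl⟩
  exact rc_cph (rc_le hs (h.reg z hz))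

theorem ok (h : Fw c n m K T N ws) (hs : s ∈ Icc 0 T) : Ok c n m (cph s '' K) (ws.map (· s)) :=
  ⟨h.cp hs, h.ty.imp fun _ a => ⟨a.1, tw_at a.2 hs⟩, by rw [List.length_map]; exact h.len⟩

theorem take {m' : ℕ} (h : Fw c n m K T N ws) {i : ℕ} (hi : i ≤ m') : Fw c n m' K T N (ws.take i) :=
  ⟨h.cpt, h.reg, let ⟨σ, a, b⟩ := h.ty
    ⟨σ.take i, ((List.take_sublist _ _).count_le _).trans a, List.forall₂_take i b⟩,
    (List.length_take_le _ _).trans hi⟩

theorem drop {m' : ℕ} (h : Fw c n m K T N ws) {i : ℕ} (hi : ws.length - i ≤ m') :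
    Fw c n m' K T N (ws.drop i) :=
  ⟨h.cpt, h.reg, let ⟨σ, a, b⟩ := h.ty
    ⟨σ.drop i, ((List.drop_sublist _ _).count_le _).trans a, List.forall₂_drop i b⟩,
    by rwa [List.length_drop]⟩

theorem rev (h : Fw c n m K T N ws) : Fw c n m K T N (rf ws) :=
  ⟨h.cpt, h.reg, let ⟨σ, a, b⟩ := h.ty
    ⟨σ.reverse, by rwa [List.count_reverse], List.rel_reverse
      (List.forall₂_map_right_iff.2 (b.imp fun _ _ k => k.swap))⟩, by simpa [rf] using h.len⟩

theorem pol (t : E0 c) (hc : COV c) (S : Ss c n m) (hT : 0 < T) (h : Fw c n m K T N ws) :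
    Pol (N * ws.length) (Icc 0 T) fun s => c.SK s (wv c (ws.map (· s))) := by
  induction ws with
  | nil => exact (NA.Pol.const c.Om).congr fun s _ => c.K_vac s
  | cons q ws ih =>
    have h' : Fw c n m K T N ws := h.drop (i := 1) ((Nat.sub_le _ _).trans h.len)
    obtain ⟨σ, -, b⟩ := h.ty
    obtain ⟨e, a⟩ : ∃ e, Fa c K T N e q := by
      cases b with
      | cons a _ => exact ⟨_, a⟩
    refine NA.Pol.weak hT subset_rfl t.sg.dense ?_
    rintro _ ⟨x, hx, rfl⟩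
    rw [List.length_cons, mul_add, mul_one, add_comm]
    exact ((a.p2.map x.toLinearMap).inn (ih h')).congr fun s hs =>
      prd_sk hs.1 (Rl.std t.sg (S.step t hc (h.ok hs)) (h.sub hs)) x hx

end Fw

end

end Vale.Agent.P352X.EG.NG
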