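import Vale.Agent.P352G75.WF
import Vale.Agent.P352NA.WRD

/-!
# P352G75, row WRD: words split
-/

set_option linter.all false

open Filter Topology Set
open scoped ComplexConjugate

namespace Vale.Agent.P352X.EG.NG

open Vale.Agent.P352 Vale.Agent.P352.GF Vale.Agent.P352.BW Vale.Agent.P352.H246
open Vale.Agent.P352.H496 Vale.Agent.P352.H755 Vale.Agent.P352.H15
open Vale.Agent.P352.SubConf (IsAdj)
open Vale.Agent.P352X.EB
open Vale.Agent.P352X.EB.NA (Pol rv rv_nil rv_append rv_cons rv_rv length_rv rv_eq_nil rc_le rc_rh rc_be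
  rc_cph cph_cpt bar_pb in_pb rf rf_at RIG sbm ex_cpt nd_mem nd_pos lb)
open UniformSpace (Completion)
open Bornology (IsBounded)

noncomputable section

universe u

variable {D : Type u} [NormedAddCommGroup D] [InnerProductSpace ℂ D] {c : Cg D} [Nd c] [NI c]
  {σ τ : List Bool} {n m : ℕ} {f g : Fn} {C : Set V}

/-- the letter of the potential -/
def lt (c : Cg D) [Nd c] (f : Fn) : Completion D × Completion D := (c.l f, c.l (bar f))

theorem lt_lin (z : ℂ) (hf : IsTest f) (hg : IsTest g) :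
    (lt c fun x => f x + z * g x).1 = (lt c f).1 + conj (conj z) • (lt c g).1 ∧
    (lt c fun x => f x + z * g x).2 = (lt c f).2 + conj z • (lt c g).2 := by
  refine ⟨by rw [Complex.conj_conj]; exact c.hl.lin f g z hf hg, ?_⟩
  show c.l _ = _
  rw [show (bar fun x => f x + z * g x) = fun x => bar f x + conj z * bar g x from
    funext fun x => by simp [bar]]
  exact c.hl.lin _ _ _ (Ap.test_bar hf) (Ap.test_bar hg)

theorem lt_U (t : E0 c) {L : Ix → V} (hL : IsLor L) (hf : IsTest f) :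
    (Ug c.Q 1 L 0 (lt c fun x => f (sim 1 L 0 x)).1, Ug c.Q 1 L 0 (lt c fun x => f (sim 1 L 0 x)).2) =
      lt c f := by
  have := fun g hg => c.hl.cov 1 L 0 g one_pos hL hg
  simp only [one_pow, Complex.ofReal_one, one_smul] at this
  exact Prod.ext (this f hf).symm (this _ (Ap.test_bar hf)).symm

/-- words with a gap -/
structure Cx (c : Cg D) [Nd c] (σ τ : List Bool) where
  K : Set V
  u : List (Completion D × Completion D)
  v : List (Completion D × Completion D)
  cpt : IsCompact K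
  sub : K ⊆ W0
  hu : Tw c K σ u
  hv : Tw c K τ v

namespace Cx

variable (x : Cx c σ τ)

/-- the word with the potential in the gap -/
def w (f : Fn) : List (Completion D × Completion D) := x.u ++ lt c f :: x.v

theorem len (f : Fn) : (x.w f).length = σ.length + τ.length + 1 := by
  rw [w, List.length_append, List.length_cons, x.hu.length, x.hv.length, add_assoc]

variable (h1 : σ.count true + τ.count true ≤ n) (h2 : σ.length + τ.length ≤ m)
include h1 h2

theorem ok {K : Set V} (hK : IsCompact K) (e : x.K ⊆ K) (hf : In K f) :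
    Ok c (n + 1) (m + 1) K (x.w f) :=
  ⟨hK, ⟨σ ++ true :: τ, by simp; omega,
    (x.hu.mono e).append (.cons ⟨f, hf, rfl⟩ (x.hv.mono e))⟩, by rw [len]; omega⟩

variable (t : E0 c) (hc : COV c) (S : Ss c (n + 1) m)
include t hc S

theorem lin (z : ℂ) (hf : In W0 f) (hg : In W0 g) (Z : Completion D →L[ℂ] Completion D) {i : ℕ}
    (i0 : 0 < i) (i1 : i < σ.length + τ.length + 1) :
    inner ℂ (Z (wv c (rv ((x.w fun y => f y + z * g y).take i))))
      (wv c ((x.w fun y => f y + z * g y).drop i)) =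
    inner ℂ (Z (wv c (rv ((x.w f).take i)))) (wv c ((x.w f).drop i)) +
      z * inner ℂ (Z (wv c (rv ((x.w g).take i)))) (wv c ((x.w g).drop i)) := by
  have hK : IsCompact (x.K ∪ (tsupport f ∪ tsupport g)) := x.cpt.union (hf.2.1.union hg.2.1)
  have a : In (x.K ∪ (tsupport f ∪ tsupport g)) f :=
    ⟨hf.1, hf.2.1, subset_union_left.trans subset_union_right⟩
  have b : In (x.K ∪ (tsupport f ∪ tsupport g)) g :=
    ⟨hg.1, hg.2.1, subset_union_right.trans subset_union_right⟩
  have k := fun {f} (a : In _ f) => x.ok h1 h2 hK subset_union_left a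
  have lu := x.hu.length
  rcases le_or_gt i x.u.length with hi | hi
  · have d : ∀ {f}, In _ f → Ok c (n + 1) m _ (x.u.drop i ++ lt c f :: x.v) := fun a => by
      have := (k a).drop i
      rw [w, List.drop_append_of_le_length hi] at this
      exact this.le (this.len.trans (by omega))
    simp only [w, List.take_append_of_le_length hi, List.drop_append_of_le_length hi]
    rw [S.lin t hc z (d a) (d b) (d (Ap.in_lin z a b)) (lt_lin z hf.1 hg.1).2, inner_add_right,
      inner_smul_right]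
  · obtain ⟨j, rfl⟩ : ∃ j, i = x.u.length + (j + 1) := ⟨i - x.u.length - 1, by omega⟩
    have d : ∀ {f}, In _ f → Ok c (n + 1) m _ (rv (x.v.take j) ++ (lt c f).swap :: rv x.u) :=
      fun a => by
        have := ((k a).take (x.u.length + (j + 1))).rev
        rw [w, List.take_length_add_append, List.take_succ_cons, rv_append, rv_cons,
          List.append_assoc] at this
        exact this.le (this.len.trans (by omega))
    simp only [w, List.take_length_add_append, List.drop_length_add_append, List.take_succ_cons,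
      List.drop_succ_cons, rv_append, rv_cons, List.append_assoc, List.singleton_append]
    rw [S.lin t hc (conj z) (d a) (d b) (d (Ap.in_lin z a b)) (lt_lin z hf.1 hg.1).1, map_add,
      map_smul, inner_add_left, inner_smul_left, Complex.conj_conj]

/-- the good test functions -/
def G (C : Set V) : Submodule ℂ Fn :=
  sbm (fun f => In W0 f ∧ ∃ ζ, Sq c C (x.w f) ζ)
    ⟨Ap.in_zero, 0, fun Z _ i i0 i1 => by
      have := x.lin h1 h2 t hc S 1 Ap.in_zero Ap.in_zero Z i0 (x.len _ ▸ i1)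
      simp only [mul_zero, add_zero, one_mul, left_eq_add] at this
      rw [this, inner_zero_right]⟩
    fun f g z ⟨a, ζ, b⟩ ⟨a', ζ', b'⟩ => ⟨Ap.in_lin z a a', ζ + z • ζ', fun Z hZ i i0 i1 => by
      rw [len] at i1
      rw [x.lin h1 h2 t hc S z a a' Z i0 i1, ← b Z hZ i i0 (x.len _ ▸ i1),
        ← b' Z hZ i i0 (x.len _ ▸ i1), inner_add_right, inner_smul_right]⟩

omit S h2 in
theorem gbox (S' : ∀ m, Ss c n m) (hC : C ⊆ W1) (hf : In W0 f) : ∃ ζ, Sq c C (x.w (box f)) ζ := by
  have a : Ok c n _ (x.K ∪ tsupport f) (x.w (box f)) := ⟨x.cpt.union hf.2.1, ⟨σ ++ false :: τ,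
    by simpa using h1, (x.hu.mono subset_union_left).append (.cons
      (tr_box ⟨hf.1, hf.2.1, subset_union_right⟩) (x.hv.mono subset_union_left))⟩, le_rfl⟩
  refine ⟨_, fun Z hZ i _ _ => Rl.std t.sg (S' _ _ _ a _ _ (List.take_append_drop i _).symm)
    (union_subset x.sub hf.2.2) Z ?_⟩
  rw [NI.dual]
  exact nt_mono hC _ hZ

omit S h1 h2 hc in
theorem gdens (dn : DENS c) (h : ∀ C, IsCompact C → C ⊆ W1 → ∃ ζ, Sq c C (x.w f) ζ) : ∃ ζ, Sq c W1 (x.w f) ζ := by
  by_cases l : 1 < (x.w f).length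
  swap
  · exact ⟨0, fun Z _ i i0 i1 => absurd (by omega) l⟩
  obtain ⟨C0, c1, c2, c3⟩ := ex_cpt
  obtain ⟨ζ, a⟩ := h C0 c1 c2
  refine ⟨ζ, fun Z hZ i i0 i1 => dn _ _ _ (fun C d1 d2 Z hZ => ?_) Z
    (by rwa [NI.dual])⟩
  obtain ⟨ζ', b⟩ := h _ (c1.union d1) (union_subset c2 d2)
  obtain rfl : ζ = ζ' := (nt_rs (c := c) isOpen_interior c3).eq_of_inner_right ℂ (by
    rintro _ ⟨X, hX, rfl⟩
    have hX' := nt_mono interior_subset _ hX
    rw [a X hX' 1 one_pos l, b X (nt_mono subset_union_left _ hX') 1 one_pos l])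
  exact b Z (nt_mono subset_union_right _ hZ) i i0 i1

theorem glag (pf : PF c) : ∃ N : ℕ, ∀ (L : Ix → V) (B C : Set V) (T : ℝ),
    IsLor L → IsCompact B → B ⊆ W0 → 0 < T → (∀ z ∈ x.K ∪ B, sim 1 L 0 z ∈ Rc T 0) →
    (∀ z ∈ C, sim 1 L 0 z ∈ W1) → ∃ j : ℕ → Cx c σ τ, ∀ h, In (sim 1 L 0 '' B) h →
      (∀ k ≤ N, ∃ ζ, Sq c W1 ((j k).w (pb 2 (-NA.nd T k) h)) ζ) →
        ∃ ζ, Sq c C (x.w fun y => h (sim 1 L 0 y)) ζ := by
  obtain ⟨N1, a1⟩ := fa_tw t hc pf x.hu
  obtain ⟨N2, a2⟩ := fa_tw t hc pf x.hv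
  refine ⟨max N1 N2 * (σ.length + τ.length + 1), fun L B C T hL hB hB' hT hK hC => ?_⟩
  set N := max N1 N2 * (σ.length + τ.length + 1) with hN
  let g : Sh c := ⟨⟨1, L, 0, one_pos, hL⟩, false⟩
  obtain ⟨us, b1, b2⟩ := a1 g T fun z hz => hK z (.inl hz)
  obtain ⟨vs, b3, b4⟩ := a2 g T fun z hz => hK z (.inl hz)
  have k1 : IsCompact (g.act '' (x.K ∪ B)) := (x.cpt.union hB).image g.cont
  have k2 : ∀ z ∈ g.act '' (x.K ∪ B), z ∈ Rc T 0 := by
    rintro _ ⟨z, hz, rfl⟩
    exact hK z hz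
  replace b1 := b1.imp fun _ _ k => k.mono (image_mono (subset_union_left (t := B)))
    (le_max_left N1 N2)
  replace b3 := b3.imp fun _ _ k => k.mono (image_mono (subset_union_left (t := B)))
    (le_max_right N1 N2)
  refine ⟨fun k => ⟨cph (NA.nd T k) '' (g.act '' (x.K ∪ B)), us.map (· (NA.nd T k)), vs.map (· (NA.nd T k)),
    cph_cpt k1 fun z hz => rc_rh (rc_le (nd_mem hT k) (k2 z hz)), by
      rintro _ ⟨z, hz, rfl⟩
      exact rc_cph (rc_le (nd_mem hT k) (k2 z hz)), tw_at b1 (nd_mem hT k), tw_at b3 (nd_mem hT k)⟩,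
    fun h hh H => ?_⟩
  have hh' : In (g.act '' (x.K ∪ B)) h := Ap.in_mono hh (image_mono subset_union_right)
  have ln : (us ++ lf c h :: vs).length = σ.length + τ.length + 1 := by
    rw [List.length_append, List.length_cons, b1.length_eq, b3.length_eq, add_assoc]
  have F : Fw c (n + 1) (m + 1) _ T _ (us ++ lf c h :: vs) := ⟨k1, k2, ⟨σ ++ true :: τ,
    by simp; omega, List.rel_append b1 (.cons ((fa_l t hh' k2).mono subset_rfl (Nat.zero_le _)) b3)⟩,
    by omega⟩
  have e0 : (us ++ lf c h :: vs).map (· 0) = mp c g (x.w fun y => h (sim 1 L 0 y)) := by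
    rw [List.map_append, List.map_cons, b2, b4, lf_zero, w, mp, mp, mp, List.map_append,
      List.map_cons]
    exact congrArg (_ ++ · :: _) (lt_U t hL hh.1).symm
  have ok : Ok c (n + 1) (m + 1) (x.K ∪ B) (x.w fun y => h (sim 1 L 0 y)) :=
    x.ok h1 h2 (x.cpt.union hB) subset_union_left (Ap.in_mono (Ap.in_sim one_pos hL 0 hh) (by
      rintro y ⟨y', a, b⟩
      have := congrArg g.toSg.inv.act b
      rw [show sim 1 L 0 = g.act from rfl, g.inv_act, g.inv_act] at this
      exact .inr (this ▸ a)))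
  choose! ζ hζ using H
  refine ⟨star (g.U c) (∑ k ∈ Finset.range (N + 1), (lb T N k).eval ((0 : ℝ) : ℂ) •
    c.SK (NA.nd T k) (ζ k)), fun Z hZ i i0 i1 => ?_⟩
  rw [len] at i1
  have hZ' : g.U c * Z * star (g.U c) ∈ (M0 c).commutant := nt_com t.sg g (nt_mono hC _ hZ)
  have P := (((F.take (m' := m) (i := i) (by omega)).rev.pol t hc S hT).map
    (g.U c * Z * star (g.U c)).toLinearMap).inn ((F.drop (m' := m) (i := i) (by omega)).pol t hc S hT)
  have P0 := (P.mono (M := N) (by
    simp only [rf, List.length_reverse, List.length_map, List.length_take, List.length_drop, ln,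
      ← mul_add]
    exact Nat.mul_le_mul_left _ (by omega))).lag hT subset_rfl (left_mem_Icc.2 hT.le)
  simp only [rf_at, List.map_take, List.map_drop, e0, c.K_zero] at P0
  rw [mp, ← List.map_take, ← List.map_drop, show ∀ w, List.map _ w = mp c g w from fun _ => rfl,
    show ∀ w, List.map _ w = mp c g w from fun _ => rfl, rv_mp,
    S.wv_U t hc ((ok.take i).le ((List.length_take_le _ _).trans (by omega))).rev,
    S.wv_U t hc ((ok.drop i).le (by rw [List.length_drop, len]; omega))] at P0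
  simp only [ContinuousLinearMap.coe_coe, ContinuousLinearMap.mul_apply, MU2.su t.sg,
    MU2.inn t.sg] at P0
  rw [P0, inner_star, inner_sum]
  refine Finset.sum_congr rfl fun k hk => ?_
  have hk' := hζ k (Nat.lt_succ_iff.1 (Finset.mem_range.1 hk)) _
    ((NI.dual _).1 (NI.skc _ (nd_pos hT k).le _ hZ')) i i0 (by rw [len]; exact i1)
  simp only [ContinuousLinearMap.mul_apply, star_inner, c.K_vac, (t.sg.vac g).2] at hk'
  rw [inner_smul_right, smul_eq_mul, hk', List.map_append]
  rfl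

theorem good (dn : DENS c) (pf : PF c) (rig : RIG (Cx c σ τ)) (S' : ∀ m, Ss c n m) (hf : In W0 f) :
    ∃ ζ, Sq c W1 (x.w f) ζ := by
  refine (rig (fun _ => W0) (fun y => y.G h1 h2 t hc S) (fun _ => ⟨wdg_open _ _ _, subset_rfl⟩)
    (fun y C u hC hu => ⟨Ap.in_box hu, y.gbox h1 t hc S' hC hu⟩) (fun y => ?_)
    (fun y h H => ⟨(H ∅ isCompact_empty (empty_subset _)).1,
      y.gdens t dn fun C a b => (H C a b).2⟩) x f hf).2
  obtain ⟨N, hN⟩ := y.glag h1 h2 t hc S pf
  refine ⟨y.K, N, y.cpt, y.sub, fun L B C T hL hB hB' hT hK hC => ?_⟩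
  obtain ⟨j, hj⟩ := hN L B C T hL hB hB' hT hK hC
  refine ⟨j, fun k _ z hz => rc_cph (rc_le (nd_mem hT k) (hK z (.inr hz))), fun h hh H =>
    ⟨Ap.in_mono (Ap.in_sim one_pos hL 0 hh) ?_, hj h hh fun k hk => (H k hk).2⟩⟩
  rintro y ⟨y', a, b⟩
  have := congrArg (Sg.inv ⟨1, L, 0, one_pos, hL⟩).act b
  rw [show sim 1 L 0 = Sg.act ⟨1, L, 0, one_pos, hL⟩ from rfl, Sg.inv_act, Sg.inv_act] at this
  exact hB' (this ▸ a)

end Cx

theorem sh_succ (t : E0 c) (hc : COV c) (dn : DENS c) (pf : PF c) (rig : ∀ σ τ, RIG (Cx c σ τ))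
    (S' : ∀ m, Ss c n m) : ∀ m, Ss c (n + 1) m := by
  intro m
  induction m with
  | zero => exact fun K w h => sp_one t hc (h.le (h.len.trans zero_le_one))
  | succ m S =>
    have key : ∀ K w, Ok c (n + 1) (m + 1) K w → Pp c K w := fun K w h => by
      obtain ⟨σ, a, b⟩ := h.ty
      rcases a.lt_or_eq with a | a
      · exact fun u v _ _ => S' _ K w ⟨h.cpt, ⟨σ, Nat.lt_succ_iff.1 a, b⟩, le_rfl⟩ u v
      refine pp_of t hc S h fun g hg => ?_
      obtain ⟨σ1, σ2, rfl⟩ := List.append_of_mem (show true ∈ σ from List.count_pos_iff.1 (by omega))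
      have b' := b.U t hc g
      have l := h.len
      rw [← b.length, List.length_append, List.length_cons] at l
      generalize mp c g w = w' at b'
      obtain ⟨u, w2, rfl, b1, b2⟩ : ∃ u w2, w' = u ++ w2 ∧ Tw c (g.act '' K) σ1 u ∧
          Tw c (g.act '' K) (true :: σ2) w2 :=
        ⟨_, _, (List.take_append_drop σ1.length w').symm, by simpa using b'.take σ1.length,
          by simpa using b'.drop σ1.length⟩
      cases b2 with
      | @cons _ p _ v b2 b3 =>
        obtain ⟨f, hf, rfl⟩ := b2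
        have sb : g.act '' K ⊆ W0 := by
          rintro _ ⟨y, hy, rfl⟩
          exact hg y hy
        exact Cx.good ⟨_, u, v, h.cpt.image g.cont, sb, b1, b3⟩ (by simp at a; omega) (by omega)
          t hc S dn pf (rig _ _) S' (Ap.in_mono hf sb)
    intro K w h
    rcases le_or_gt w.length 1 with l | l
    · exact sp_one t hc (h.le l)
    · exact sp_of t l (key K w h) (key K _ h.rev)

theorem sh_all (t : E0 c) (hc : COV c) (dn : DENS c) (rig : ∀ σ τ, RIG (Cx c σ τ)) (n : ℕ) :
    ∀ m, Ss c n m := by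
  induction n with
  | zero => exact fun m K w h => let ⟨σ, a, b⟩ := h.ty; sp_true t h.bd b (Nat.le_zero.1 a)
  | succ n ih => exact sh_succ t hc dn NI.pf rig ih

theorem wrd_row (t : E0 c) (hc : COV c) (dn : DENS c) (rig : ∀ ι : Type u, RIG ι) : WRD c :=
  fun K σ w hK h => sh_all t hc dn (fun _ _ => rig _) _ _ K w ⟨hK, ⟨σ, le_rfl, h⟩, le_rfl⟩

end

end Vale.Agent.P352X.EG.NG
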